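import Vale.Agent.P108.Exponent

/-!
The parameters of positive mean exponent form an F-sigma set.
-/

open MeasureTheory Filter Topology
open Vale.Agent.P108

namespace Vale.Agent.Results.P108.FSigma

theorem result :
    ∃ L : ℝ → ℝ,
      (∀ k, Tendsto
        (fun n : ℕ => (∫ z : Torus, Real.log ‖derivN k n z‖ ∂(volume.prod volume)) / n)
        atTop (𝓝 (L k))) ∧
      (∀ (k : ℝ) (lam : Torus → ℝ),
        (∀ᵐ z ∂((volume : Measure UnitAddCircle).prod volume),
          Tendsto (fun n : ℕ => Real.log ‖derivN k n z‖ / n) atTop (𝓝 (lam z))) →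
        ∫ z, lam z ∂((volume : Measure UnitAddCircle).prod volume) = L k) ∧
      UpperSemicontinuous L ∧
      ∃ C : ℕ → Set ℝ, (∀ j, IsClosed (C j)) ∧ {k | 0 < L k} = ⋃ j, C j :=
  ⟨rate, tendsto_rate, integral_exponent, upperSemicontinuous_rate, exists_closed_cover⟩

end Vale.Agent.Results.P108.FSigma
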